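import Mathlib
import Vale.Agent.P064.Defs
import Vale.Agent.P064.Full

namespace Vale.Agent.Results.P064.SecondKahnKalai

open Vale.Agent.P064

/-- The second Kahn–Kalai conjecture: `p_c = O(p_E log n)`; moreover `p̃_E = O(p_E)`. -/
theorem result :
    ∃ C : ℝ, 0 < C ∧ ∀ n : ℕ, 2 ≤ n → ∀ (W : Type) [Fintype W] (H : SimpleGraph W),
      Fintype.card W ≤ n → H.edgeSet.Nonempty →
        pEtilde n H ≤ C * pE n H ∧ pc n H ≤ C * pE n H * Real.log n :=
  full_bounds

end Vale.Agent.Results.P064.SecondKahnKalai
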